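import Mathlib

/-! Change of variables along a regular closed curve in the unit circle. -/

set_option autoImplicit false

open Set Filter Metric Topology Real Complex

namespace Crest.Agent.H1Cz

theorem curve_density {w w' : ℝ → ℂ} (hw : ∀ θ, HasDerivAt w (w' θ) θ) (hw' : Continuous w')
    (hne : ∀ θ, w' θ ≠ 0) (hn : ∀ θ, ‖w θ‖ = 1) (hp : Function.Periodic w (2 * π))
    (hp' : Function.Periodic w' (2 * π)) :
    ∃ ρ : ℝ → ℝ, Continuous ρ ∧ Function.Periodic ρ (2 * π) ∧ (∀ θ, 0 ≤ ρ θ) ∧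
      ∀ h : ℂ → ℂ, ContinuousOn h (sphere 0 1) →
        (2 * π : ℂ)⁻¹ * ∫ θ in (0 : ℝ)..2 * π, (ρ θ : ℂ) * h (w θ) = circleAverage h 0 1 := by
  have hwc : Continuous w := continuous_iff_continuousAt.2 fun θ => (hw θ).continuousAt
  have hw0 : ∀ θ, w θ ≠ 0 := fun θ h0 => by simpa [h0] using hn θ
  have hww : ∀ θ, w θ * (starRingEnd ℂ) (w θ) = 1 := fun θ => by
    rw [Complex.mul_conj, Complex.normSq_eq_norm_sq, hn θ]; simp
  set J : ℝ → ℝ := fun θ => (w' θ * (starRingEnd ℂ) (w θ)).im with hJ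
  have hJc : Continuous J := by
    simp only [hJ]
    exact Complex.continuous_im.comp (hw'.mul (Complex.continuous_conj.comp hwc))
  have hre : ∀ θ, (w' θ * (starRingEnd ℂ) (w θ)).re = 0 := by
    intro θ
    have h1 : HasDerivAt (fun θ => (starRingEnd ℂ) (w θ)) ((starRingEnd ℂ) (w' θ)) θ :=
      (Complex.conjCLE : ℂ →L[ℝ] ℂ).hasFDerivAt.comp_hasDerivAt θ (hw θ)
    have h2 := (hw θ).fun_mul h1
    have h3 : HasDerivAt (fun θ => w θ * (starRingEnd ℂ) (w θ)) 0 θ := by
      simp only [hww]; exact hasDerivAt_const _ _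
    have h4 := congrArg Complex.re (h2.unique h3)
    simp only [Complex.add_re, Complex.mul_re, Complex.conj_re, Complex.conj_im,
      Complex.zero_re] at h4 ⊢
    linarith
  have hwJ : ∀ θ, w' θ = I * (J θ : ℂ) * w θ := by
    intro θ
    have h1 : w' θ * (starRingEnd ℂ) (w θ) = I * (J θ : ℂ) := by
      apply Complex.ext
      · rw [hre]; simp
      · simp [hJ]
    calc w' θ = w' θ * (w θ * (starRingEnd ℂ) (w θ)) := by rw [hww, mul_one]
      _ = (w' θ * (starRingEnd ℂ) (w θ)) * w θ := by ring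
      _ = _ := by rw [h1]
  have hJ0 : ∀ θ, J θ ≠ 0 := fun θ h0 => hne θ (by rw [hwJ θ, h0]; simp)
  have hJp : Function.Periodic J (2 * π) := fun θ => by simp only [hJ, hp θ, hp' θ]
  set φ : ℝ → ℝ := fun θ => arg (w 0) + ∫ t in (0 : ℝ)..θ, J t with hφ
  have hφd : ∀ θ, HasDerivAt φ (J θ) θ := fun θ =>
    (intervalIntegral.integral_hasDerivAt_right (hJc.intervalIntegrable _ _)
      (hJc.stronglyMeasurableAtFilter _ _) hJc.continuousAt).const_add _
  have hφ0 : φ 0 = arg (w 0) := by simp [hφ]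
  have hexp : ∀ θ, w θ = exp ((φ θ : ℂ) * I) := by
    have hd : ∀ θ, HasDerivAt (fun θ => w θ * exp (-((φ θ : ℂ) * I))) 0 θ := by
      intro θ
      have h1 : HasDerivAt (fun θ => -((φ θ : ℂ) * I)) (-((J θ : ℂ) * I)) θ :=
        ((hφd θ).ofReal_comp.mul_const I).neg
      have h2 := (hw θ).fun_mul h1.cexp
      refine h2.congr_deriv ?_
      rw [hwJ θ]; ring
    have hconst := is_const_of_deriv_eq_zero (fun θ => (hd θ).differentiableAt)
      (fun θ => (hd θ).deriv)
    intro θ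
    have h1 := hconst θ 0
    have h2 : w 0 = exp ((φ 0 : ℂ) * I) := by
      rw [hφ0]
      have := norm_mul_exp_arg_mul_I (w 0)
      rw [hn 0] at this
      simpa using this.symm
    rw [h2, ← Complex.exp_add, add_neg_cancel, Complex.exp_zero, Complex.exp_neg] at h1
    have h3 := Complex.exp_ne_zero ((φ θ : ℂ) * I)
    field_simp at h1
    exact h1
  obtain ⟨k, hk⟩ : ∃ k : ℤ, φ (2 * π) = φ 0 + k • (2 * π) := by
    have h1 : exp ((φ (2 * π) : ℂ) * I) = exp ((φ 0 : ℂ) * I) := by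
      rw [← hexp, ← hexp, ← hp 0, zero_add]
    obtain ⟨k, hk⟩ := Complex.exp_eq_exp_iff_exists_int.1 h1
    refine ⟨k, ?_⟩
    have := congrArg Complex.im hk
    simpa using this
  have hint : ∫ t in (0 : ℝ)..2 * π, J t = k * (2 * π) := by
    simp only [hφ, intervalIntegral.integral_same, add_zero, zsmul_eq_mul] at hk
    linarith
  have hsign : (∀ θ, 0 < J θ) ∨ (∀ θ, J θ < 0) := by
    by_contra hcon
    push Not at hcon
    obtain ⟨⟨a, ha⟩, ⟨b, hb⟩⟩ := hcon
    obtain ⟨c, hc⟩ := intermediate_value_univ a b hJc ⟨ha, hb⟩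
    exact hJ0 c hc
  have h2π : (0 : ℝ) < 2 * π := by positivity
  have hk0 : (k : ℝ) ≠ 0 ∧ ∀ θ, 0 ≤ J θ / k := by
    rcases hsign with h | h
    · have h1 := intervalIntegral.intervalIntegral_pos_of_pos (hJc.intervalIntegrable 0 (2 * π)) h h2π
      rw [hint] at h1
      have h2 : (0 : ℝ) < k := by nlinarith
      exact ⟨h2.ne', fun θ => (div_pos (h θ) h2).le⟩
    · have h1 := intervalIntegral.intervalIntegral_pos_of_pos
        (hJc.neg.intervalIntegrable 0 (2 * π)) (fun θ => neg_pos.2 (h θ)) h2π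
      simp only [Pi.neg_apply, intervalIntegral.integral_neg, hint] at h1
      have h2 : (k : ℝ) < 0 := by nlinarith
      exact ⟨h2.ne, fun θ => (div_pos_of_neg_of_neg (h θ) h2).le⟩
  refine ⟨fun θ => J θ / k, hJc.div_const _, fun θ => by simp only [hJp θ], hk0.2, ?_⟩
  intro h hh
  set g : ℝ → ℂ := fun t => h (circleMap 0 1 t) with hg
  have hgc : Continuous g :=
    hh.comp_continuous (continuous_circleMap 0 1) fun t => circleMap_mem_sphere 0 zero_le_one t
  have hgp : Function.Periodic g (2 * π) := fun t => by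
    simp only [hg, periodic_circleMap 0 1 t]
  have h1 := intervalIntegral.integral_deriv_smul_comp (a := 0) (b := 2 * π) (fun θ _ => hφd θ)
    hJc.continuousOn hgc
  rw [hk, hgp.intervalIntegral_add_zsmul_eq k _ (fun a b => hgc.intervalIntegrable a b),
    hgp.intervalIntegral_add_eq (φ 0) 0, zero_add] at h1
  have h2 : ∫ θ in (0 : ℝ)..2 * π, ((J θ / k : ℝ) : ℂ) * h (w θ) =
      (k : ℂ)⁻¹ * ∫ θ in (0 : ℝ)..2 * π, J θ • (g ∘ φ) θ := by
    rw [← intervalIntegral.integral_const_mul]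
    refine intervalIntegral.integral_congr fun θ _ => ?_
    simp only [Function.comp, hg, circleMap, hexp θ, real_smul]
    push_cast
    simp only [one_mul, zero_add]
    ring
  have hkc : (k : ℂ) ≠ 0 := by exact_mod_cast hk0.1
  rw [h2, h1, circleAverage_def, zsmul_eq_mul, real_smul]
  push_cast
  simp only [hg]
  field_simp

end Crest.Agent.H1Cz
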