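import Mathlib

/-! The operator Poisson kernel of a matrix with spectrum in the open unit disc. -/

set_option autoImplicit false

open Set Filter Metric Topology Matrix Polynomial Real
open scoped ComplexOrder

namespace Crest.Agent.H1Cz

variable {n : Type} [Fintype n] [DecidableEq n]

lemma diffAt_det {M : ℂ → Matrix n n ℂ} {z : ℂ}
    (h : ∀ i j, DifferentiableAt ℂ (fun z => M z i j) z) :
    DifferentiableAt ℂ (fun z => (M z).det) z := by
  simp only [Matrix.det_apply']
  refine DifferentiableAt.fun_sum fun σ _ => ?_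
  refine DifferentiableAt.const_mul ?_ _
  exact DifferentiableAt.fun_finsetProd fun i _ => h _ _

lemma diffAt_inv {M : ℂ → Matrix n n ℂ} {z : ℂ}
    (h : ∀ i j, DifferentiableAt ℂ (fun z => M z i j) z) (hd : (M z).det ≠ 0) (i j : n) :
    DifferentiableAt ℂ (fun z => (M z)⁻¹ i j) z := by
  simp only [Matrix.inv_def, Matrix.smul_apply, Ring.inverse_eq_inv', smul_eq_mul,
    Matrix.adjugate_apply]
  refine ((diffAt_det h).inv hd).mul (diffAt_det fun a b => ?_)
  simp only [Matrix.updateRow_apply]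
  split_ifs
  · exact differentiableAt_const _
  · exact h _ _

/-- `(1 - z Cᴴ)⁻¹`. -/
noncomputable def Qk (C : Matrix n n ℂ) (z : ℂ) : Matrix n n ℂ := (1 - z • Cᴴ)⁻¹

/-- The operator Poisson kernel. -/
noncomputable def Pk (C : Matrix n n ℂ) (z : ℂ) : Matrix n n ℂ := (Qk C z)ᴴ + Qk C z - 1

/-- The spectrum of `C` lies in the open unit disc. -/
def Good (C : Matrix n n ℂ) : Prop := ∀ z : ℂ, ‖z‖ ≤ 1 → (1 - z • Cᴴ).det ≠ 0

lemma good_of_spectrum {C : Matrix n n ℂ} (h : ∀ μ ∈ spectrum ℂ C, ‖μ‖ < 1) : Good C := by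
  intro z hz
  rcases eq_or_ne z 0 with rfl | h0
  · simp
  have h1 : (1 - z • Cᴴ) = (1 - (star z) • C)ᴴ := by
    simp [conjTranspose_sub, conjTranspose_smul]
  rw [h1, det_conjTranspose, star_ne_zero]
  have hz0 : star z ≠ 0 := star_ne_zero.2 h0
  have h2 : (star z)⁻¹ ∉ spectrum ℂ C := by
    intro hm
    have := h _ hm
    rw [norm_inv, norm_star] at this
    have h3 : 0 < ‖z‖ := norm_pos_iff.2 h0
    have := (inv_lt_one₀ h3).1 this
    linarith
  rw [spectrum.notMem_iff, Matrix.isUnit_iff_isUnit_det, isUnit_iff_ne_zero] at h2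
  have h3 : 1 - star z • C = star z • (algebraMap ℂ (Matrix n n ℂ) (star z)⁻¹ - C) := by
    rw [smul_sub, Algebra.algebraMap_eq_smul_one, smul_smul, mul_inv_cancel₀ hz0, one_smul]
  rw [h3, det_smul]
  exact mul_ne_zero (pow_ne_zero _ hz0) h2

lemma diffAt_Qk {C : Matrix n n ℂ} (hC : Good C) {z : ℂ} (hz : ‖z‖ ≤ 1) (a b : n) :
    DifferentiableAt ℂ (fun z => Qk C z a b) z := by
  refine diffAt_inv (M := fun z => 1 - z • Cᴴ) (fun i j => ?_) (hC z hz) a b
  simp only [Matrix.sub_apply, Matrix.smul_apply, smul_eq_mul]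
  fun_prop

lemma Qk_zero (C : Matrix n n ℂ) : Qk C 0 = 1 := by simp [Qk]

lemma Qk_mul {C : Matrix n n ℂ} (hC : Good C) {z : ℂ} (hz : ‖z‖ ≤ 1) :
    Qk C z * (1 - z • Cᴴ) = 1 :=
  Matrix.nonsing_inv_mul _ (isUnit_iff_ne_zero.2 (hC z hz))

lemma mul_Qk {C : Matrix n n ℂ} (hC : Good C) {z : ℂ} (hz : ‖z‖ ≤ 1) :
    (1 - z • Cᴴ) * Qk C z = 1 :=
  Matrix.mul_nonsing_inv _ (isUnit_iff_ne_zero.2 (hC z hz))

lemma mul_QkH {C : Matrix n n ℂ} (hC : Good C) {z : ℂ} (hz : ‖z‖ ≤ 1) :
    (1 - star z • C) * (Qk C z)ᴴ = 1 := by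
  have := congrArg conjTranspose (Qk_mul hC hz)
  simpa [conjTranspose_mul, conjTranspose_sub, conjTranspose_smul] using this

lemma star_mul_self_of_norm {z : ℂ} (hz : ‖z‖ = 1) : z * star z = 1 := by
  rw [Complex.star_def, Complex.mul_conj, Complex.normSq_eq_norm_sq, hz]; simp

lemma Pk_psd {C : Matrix n n ℂ} (hC : Good C) (hc : (1 - Cᴴ * C).PosSemidef) {z : ℂ}
    (hz : ‖z‖ = 1) : (Pk C z).PosSemidef := by
  have h1 := Qk_mul hC hz.le
  have h2 := mul_QkH hC hz.le
  have h3 := star_mul_self_of_norm hz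
  have key : Pk C z = Qk C z * (1 - Cᴴ * C) * (Qk C z)ᴴ := by
    have e : (1 - Cᴴ * C) = (1 - z • Cᴴ) + (1 - star z • C) - (1 - z • Cᴴ) * (1 - star z • C) := by
      simp only [mul_sub, sub_mul, one_mul, mul_one, smul_mul_assoc, mul_smul_comm, smul_smul,
        smul_sub, h3, mul_comm (star z) z, one_smul]
      abel
    rw [e, mul_sub, mul_add, sub_mul, add_mul, h1, ← mul_assoc, h1, one_mul, one_mul, mul_assoc,
      h2, mul_one, Pk]
  rw [key]
  exact hc.mul_mul_conjTranspose_same _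

lemma smul_QkH {C : Matrix n n ℂ} (hC : Good C) {z : ℂ} (hz : ‖z‖ = 1) :
    z • (Qk C z)ᴴ = z • (1 : Matrix n n ℂ) + C * (Qk C z)ᴴ := by
  have h2 := mul_QkH hC hz.le
  have h3 := star_mul_self_of_norm hz
  rw [← h2, sub_mul, one_mul, smul_sub, smul_mul_assoc, smul_smul, h3, one_smul]
  abel

/-- Holomorphic at every point of the closed unit disc. -/
def Hol (W : ℂ → ℂ) : Prop := ∀ z : ℂ, ‖z‖ ≤ 1 → DifferentiableAt ℂ W z

lemma Hol.avg {W : ℂ → ℂ} (h : Hol W) : circleAverage W 0 1 = W 0 := by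
  refine circleAverage_of_differentiable_on_off_countable countable_empty ?_ ?_
  · intro z hz
    exact (h z (by simpa using hz)).continuousAt.continuousWithinAt
  · intro z hz
    exact h z (le_of_lt (by simpa using hz.1))

lemma Hol.contOn {W : ℂ → ℂ} (h : Hol W) : ContinuousOn W (sphere 0 1) := fun z hz =>
  (h z (le_of_eq (by simpa using hz))).continuousAt.continuousWithinAt

lemma hol_Qk {C : Matrix n n ℂ} (hC : Good C) (a b : n) : Hol fun z => Qk C z a b :=
  fun _ hz => diffAt_Qk hC hz a b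

lemma contOn_QkH {C : Matrix n n ℂ} (hC : Good C) (a b : n) :
    ContinuousOn (fun z => (Qk C z)ᴴ a b) (sphere 0 1) := by
  simp only [conjTranspose_apply]
  exact (hol_Qk hC b a).contOn.star

lemma contOn_Pk {C : Matrix n n ℂ} (hC : Good C) (a b : n) :
    ContinuousOn (fun z => Pk C z a b) (sphere 0 1) := by
  simp only [Pk, Matrix.sub_apply, Matrix.add_apply]
  exact ((contOn_QkH hC a b).add (hol_Qk hC a b).contOn).sub continuousOn_const

lemma ci {h : ℂ → ℂ} (hh : ContinuousOn h (sphere 0 1)) : CircleIntegrable h 0 1 :=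
  ContinuousOn.circleIntegrable zero_le_one hh

/-- The Cauchy-type average. -/
noncomputable def Iav (C : Matrix n n ℂ) (W : ℂ → ℂ) : Matrix n n ℂ :=
  Matrix.of fun a b => circleAverage (fun z => (Qk C z)ᴴ a b * W z) 0 1

lemma Iav_one {C : Matrix n n ℂ} (hC : Good C) : Iav C (fun _ => 1) = 1 := by
  ext a b
  simp only [Iav, Matrix.of_apply, mul_one, conjTranspose_apply]
  have h := (Complex.conjCLE : ℂ →L[ℝ] ℂ).circleAverage_comp_comm (ci (hol_Qk hC b a).contOn)
  rw [(hol_Qk hC b a).avg, Qk_zero] at h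
  have h' : (fun z => star (Qk C z b a)) = (Complex.conjCLE : ℂ →L[ℝ] ℂ) ∘ fun z => Qk C z b a := by
    ext z; simp
  rw [h', h]
  simp [Matrix.one_apply, eq_comm]

lemma Iav_add {C : Matrix n n ℂ} (hC : Good C) {W₁ W₂ : ℂ → ℂ} (h₁ : Hol W₁) (h₂ : Hol W₂) :
    Iav C (fun z => W₁ z + W₂ z) = Iav C W₁ + Iav C W₂ := by
  ext a b
  simp only [Iav, Matrix.of_apply, Matrix.add_apply, mul_add]
  exact circleAverage_fun_add (ci ((contOn_QkH hC a b).mul h₁.contOn))
    (ci ((contOn_QkH hC a b).mul h₂.contOn))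

lemma Iav_const_mul (C : Matrix n n ℂ) (c : ℂ) (W : ℂ → ℂ) :
    Iav C (fun z => c * W z) = c • Iav C W := by
  ext a b
  simp only [Iav, Matrix.of_apply, Matrix.smul_apply]
  rw [← circleAverage_fun_smul]
  congr 1
  ext z
  simp only [smul_eq_mul]; ring

lemma Iav_id_mul {C : Matrix n n ℂ} (hC : Good C) {W : ℂ → ℂ} (h : Hol W) :
    Iav C (fun z => z * W z) = C * Iav C W := by
  ext a b
  simp only [Iav, Matrix.of_apply, Matrix.mul_apply]
  have h0 : Hol fun z => (1 : Matrix n n ℂ) a b * (z * W z) := fun z hz =>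
    (differentiableAt_id.mul (h z hz)).const_mul _
  have h1 : EqOn (fun z => (Qk C z)ᴴ a b * (z * W z))
      (fun z => (1 : Matrix n n ℂ) a b * (z * W z) + ∑ c, C a c • ((Qk C z)ᴴ c b * W z))
      (sphere 0 |1|) := by
    intro z hz
    have hz' : ‖z‖ = 1 := by simpa using hz
    have := congrFun (congrFun (smul_QkH hC hz') a) b
    simp only [Matrix.smul_apply, Matrix.add_apply, Matrix.mul_apply, smul_eq_mul] at this
    simp only [smul_eq_mul, ← mul_assoc, ← Finset.sum_mul]
    linear_combination W z * this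
  have hi : ∀ c, CircleIntegrable (fun z => C a c • ((Qk C z)ᴴ c b * W z)) 0 1 := fun c =>
    ci (((contOn_QkH hC c b).mul h.contOn).const_smul (C a c))
  rw [circleAverage_congr_sphere h1, circleAverage_fun_add (ci h0.contOn)
    (CircleIntegrable.fun_sum _ fun c _ => hi c), h0.avg, circleAverage_fun_sum fun c _ => hi c]
  simp only [circleAverage_fun_smul]
  simp

lemma Iav_poly_mul {C : Matrix n n ℂ} (hC : Good C) (s : ℂ[X]) {W : ℂ → ℂ} (h : Hol W) :
    Iav C (fun z => s.eval z * W z) = aeval C s * Iav C W := by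
  induction s using Polynomial.induction_on' with
  | add p q hp hq =>
    simp only [eval_add, add_mul, map_add]
    rw [Iav_add hC (fun z hz => (p.differentiableAt).fun_mul (h z hz))
      (fun z hz => (q.differentiableAt).fun_mul (h z hz)), hp, hq]
  | monomial k c =>
    simp only [eval_monomial, aeval_monomial, mul_assoc]
    rw [Iav_const_mul, Algebra.algebraMap_eq_smul_one, smul_mul_assoc, one_mul]
    congr 1
    induction k with
    | zero => simp
    | succ k ih =>
      have : (fun z => z ^ (k + 1) * W z) = fun z => z * (z ^ k * W z) := by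
        ext z; ring
      rw [this, Iav_id_mul hC (fun z hz => (differentiableAt_pow k).fun_mul (h z hz)), ih, pow_succ',
        mul_assoc]

/-- The Poisson average of `r + χ e` is `r(C)` when `χ(C) = 0`. -/
theorem avg_Pk {C : Matrix n n ℂ} (hC : Good C) (r χ : ℂ[X]) (hχ : aeval C χ = 0) {W e : ℂ → ℂ}
    (hW : Hol W) (he : Hol e) (hWe : ∀ z, ‖z‖ = 1 → W z = r.eval z + χ.eval z * e z) (a b : n) :
    circleAverage (fun z => Pk C z a b * W z) 0 1 = aeval C r a b := by
  have h1 : Iav C W = aeval C r := by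
    have : Iav C W = Iav C (fun z => r.eval z * 1 + χ.eval z * e z) := by
      ext a b
      simp only [Iav, Matrix.of_apply]
      refine circleAverage_congr_sphere fun z hz => ?_
      simp only [hWe z (by simpa using hz), mul_one]
    rw [this, Iav_add hC (fun z _ => (r.differentiableAt).fun_mul (differentiableAt_const _))
      (fun z hz => (χ.differentiableAt).fun_mul (he z hz)),
      Iav_poly_mul hC r (fun z _ => differentiableAt_const _), Iav_poly_mul hC χ he, hχ,
      Iav_one hC]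
    simp
  have h2 : Hol fun z => (Qk C z a b - (1 : Matrix n n ℂ) a b) * W z := fun z hz =>
    ((diffAt_Qk hC hz a b).sub_const _).mul (hW z hz)
  have h3 : (fun z => Pk C z a b * W z) = fun z => (Qk C z)ᴴ a b * W z +
      (Qk C z a b - (1 : Matrix n n ℂ) a b) * W z := by
    ext z
    simp only [Pk, Matrix.sub_apply, Matrix.add_apply]; ring
  rw [h3, circleAverage_fun_add (ci ((contOn_QkH hC a b).fun_mul hW.contOn)) (ci h2.contOn), h2.avg,
    Qk_zero, sub_self, zero_mul, add_zero, ← h1]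
  rfl

end Crest.Agent.H1Cz
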