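import Mathlib

/-! Norm bounds for averages of Kronecker products with a positive density. -/

set_option autoImplicit false
set_option linter.unusedSectionVars false
set_option linter.deprecated false

open Set Filter Metric Topology Matrix Real
open scoped ComplexOrder MatrixOrder Kronecker InnerProductSpace

namespace Crest.Agent.H1Cz

lemma abs_le_abs_aux {a b : ℝ} (h : a ^ 2 ≤ b ^ 2) (hb : 0 ≤ b) : a ≤ b :=
  le_trans (le_abs_self a) (abs_le_of_sq_le_sq' h hb |>.2 |> fun h' =>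
    abs_le.2 ⟨(abs_le_of_sq_le_sq' h hb).1, h'⟩)

variable {ι : Type} [Fintype ι] [DecidableEq ι]

/-- A matrix as an operator on Euclidean space. -/
noncomputable abbrev Op (X : Matrix ι ι ℂ) : EuclideanSpace ℂ ι →L[ℂ] EuclideanSpace ℂ ι :=
  Matrix.toEuclideanCLM (n := ι) (𝕜 := ℂ) X

lemma inner_Op (X : Matrix ι ι ℂ) (ξ η : EuclideanSpace ℂ ι) :
    ⟪ξ, Op X η⟫_ℂ = star ξ.ofLp ⬝ᵥ X *ᵥ η.ofLp := by
  rw [EuclideanSpace.inner_eq_star_dotProduct, ofLp_toEuclideanCLM, dotProduct_comm]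

lemma inner_Op_sum (X : Matrix ι ι ℂ) (ξ η : EuclideanSpace ℂ ι) :
    ⟪ξ, Op X η⟫_ℂ = ∑ i, ∑ j, star (ξ i) * η j * X i j := by
  rw [inner_Op]
  simp only [dotProduct, mulVec, Finset.mul_sum, Pi.star_apply]
  refine Finset.sum_congr rfl fun i _ => Finset.sum_congr rfl fun j _ => by ring

lemma re_inner_Op_nonneg {X : Matrix ι ι ℂ} (hX : X.PosSemidef) (ξ : EuclideanSpace ℂ ι) :
    0 ≤ (⟪ξ, Op X ξ⟫_ℂ).re := by
  rw [inner_Op]
  exact (Complex.nonneg_iff.1 (hX.dotProduct_mulVec_nonneg _)).1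

lemma Op_mul (X Y : Matrix ι ι ℂ) (ξ : EuclideanSpace ℂ ι) : Op (X * Y) ξ = Op X (Op Y ξ) := by
  simp only [Op, map_mul, ContinuousLinearMap.mul_apply]

lemma inner_Op_adj (D : Matrix ι ι ℂ) (ξ η : EuclideanSpace ℂ ι) :
    ⟪ξ, Op Dᴴ η⟫_ℂ = ⟪Op D ξ, η⟫_ℂ := by
  rw [← star_eq_conjTranspose, Op, map_star, ContinuousLinearMap.star_eq_adjoint,
    ContinuousLinearMap.adjoint_inner_right]

lemma norm_sq_Op (D : Matrix ι ι ℂ) (ξ : EuclideanSpace ℂ ι) :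
    ‖Op D ξ‖ ^ 2 = (⟪ξ, Op (Dᴴ * D) ξ⟫_ℂ).re := by
  rw [Op_mul, inner_Op_adj, inner_self_eq_norm_sq_to_K]
  norm_cast

lemma re_inner_self (ξ : EuclideanSpace ℂ ι) : (⟪ξ, ξ⟫_ℂ).re = ‖ξ‖ ^ 2 := by
  rw [inner_self_eq_norm_sq_to_K]
  norm_cast

variable {n m : Type} [Fintype n] [DecidableEq n] [Fintype m] [DecidableEq m]

lemma norm_one_kron {v : Matrix m m ℂ} {M : ℝ} (hM0 : 0 ≤ M) (hv : ‖Op v‖ ≤ M)
    (ζ : EuclideanSpace ℂ (n × m)) : ‖Op ((1 : Matrix n n ℂ) ⊗ₖ v) ζ‖ ≤ M * ‖ζ‖ := by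
  refine abs_le_abs_aux ?_ (by positivity)
  rw [mul_pow, EuclideanSpace.norm_sq_eq, EuclideanSpace.norm_sq_eq, Fintype.sum_prod_type,
    Fintype.sum_prod_type, Finset.mul_sum]
  refine Finset.sum_le_sum fun e _ => ?_
  set ζe : EuclideanSpace ℂ m := WithLp.toLp 2 fun d => ζ (e, d) with hζe
  have h1 : ‖Op v ζe‖ ≤ M * ‖ζe‖ := (Op v).le_of_opNorm_le hv ζe
  have h2 := pow_le_pow_left₀ (norm_nonneg _) h1 2
  rw [mul_pow, EuclideanSpace.norm_sq_eq, EuclideanSpace.norm_sq_eq] at h2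
  convert h2 using 4 with c
  simp only [ofLp_toEuclideanCLM, mulVec, dotProduct, Fintype.sum_prod_type, kroneckerMap_apply,
    Matrix.one_apply, ite_mul, one_mul, zero_mul, hζe]
  rw [Finset.sum_eq_single e] <;> simp +contextual [eq_comm]

lemma kron_pointwise {Λ : Matrix n n ℂ} (hΛ : Λ.PosSemidef) {v : Matrix m m ℂ} {M : ℝ}
    (hM0 : 0 ≤ M) (hv : ‖Op v‖ ≤ M) (ξ η : EuclideanSpace ℂ (n × m)) :
    ‖⟪ξ, Op (Λ ⊗ₖ v) η⟫_ℂ‖ ≤ M / 2 * ((⟪ξ, Op (Λ ⊗ₖ (1 : Matrix m m ℂ)) ξ⟫_ℂ).re +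
      (⟪η, Op (Λ ⊗ₖ (1 : Matrix m m ℂ)) η⟫_ℂ).re) := by
  obtain ⟨D, rfl⟩ := CStarAlgebra.nonneg_iff_eq_star_mul_self.mp hΛ.nonneg
  set K : Matrix (n × m) (n × m) ℂ := D ⊗ₖ (1 : Matrix m m ℂ) with hK
  have hKH : Kᴴ = Dᴴ ⊗ₖ (1 : Matrix m m ℂ) := by rw [hK, conjTranspose_kronecker, conjTranspose_one]
  have h1 : (star D * D) ⊗ₖ (1 : Matrix m m ℂ) = Kᴴ * K := by
    rw [hKH, hK, ← mul_kronecker_mul, mul_one, star_eq_conjTranspose]
  have h2 : (star D * D) ⊗ₖ v = Kᴴ * (((1 : Matrix n n ℂ) ⊗ₖ v) * K) := by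
    rw [hKH, hK, ← mul_kronecker_mul, ← mul_kronecker_mul, mul_one, one_mul, one_mul,
      star_eq_conjTranspose]
  rw [h1, h2, ← norm_sq_Op, ← norm_sq_Op, Op_mul, inner_Op_adj, Op_mul]
  refine (norm_inner_le_norm _ _).trans ?_
  have h3 := norm_one_kron hM0 hv (Op K η)
  have h4 := mul_le_mul_of_nonneg_left h3 (norm_nonneg (Op K ξ))
  refine h4.trans ?_
  have h5 := mul_nonneg hM0 (sq_nonneg (‖Op K ξ‖ - ‖Op K η‖))
  nlinarith

lemma inner_Op_integral {X : ℝ → Matrix ι ι ℂ} (hX : Continuous X) {Y : Matrix ι ι ℂ} {c : ℂ}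
    {a b : ℝ} (hY : ∀ i j, Y i j = c * ∫ θ in a..b, X θ i j) (ξ η : EuclideanSpace ℂ ι) :
    ⟪ξ, Op Y η⟫_ℂ = c * ∫ θ in a..b, ⟪ξ, Op (X θ) η⟫_ℂ := by
  have hc : ∀ i j, Continuous fun θ => star (ξ i) * η j * X θ i j := fun i j =>
    continuous_const.mul (hX.matrix_elem i j)
  simp only [inner_Op_sum]
  rw [intervalIntegral.integral_finsetSum fun i _ =>
    (continuous_finsetSum _ fun j _ => hc i j).intervalIntegrable _ _, Finset.mul_sum]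
  refine Finset.sum_congr rfl fun i _ => ?_
  rw [intervalIntegral.integral_finsetSum fun j _ => (hc i j).intervalIntegrable _ _,
    Finset.mul_sum]
  refine Finset.sum_congr rfl fun j _ => ?_
  rw [intervalIntegral.integral_const_mul, hY]
  ring

lemma continuous_inner_Op {X : ℝ → Matrix ι ι ℂ} (hX : Continuous X) (ξ η : EuclideanSpace ℂ ι) :
    Continuous fun θ => ⟪ξ, Op (X θ) η⟫_ℂ := by
  simp only [inner_Op_sum]
  exact continuous_finsetSum _ fun i _ => continuous_finsetSum _ fun j _ =>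
    continuous_const.mul (hX.matrix_elem i j)

lemma continuous_kron {Λ : ℝ → Matrix n n ℂ} {v : ℝ → Matrix m m ℂ} (hΛ : Continuous Λ)
    (hv : Continuous v) : Continuous fun θ => Λ θ ⊗ₖ v θ :=
  continuous_matrix fun i j => (hΛ.matrix_elem i.1 j.1).mul (hv.matrix_elem i.2 j.2)

/-- The average of `Λ ⊗ v` has norm at most `sup ‖v‖`. -/
theorem norm_avg_kron {Λ : ℝ → Matrix n n ℂ} {v : ℝ → Matrix m m ℂ} (hΛ : Continuous Λ)
    (hv : Continuous v) (hpsd : ∀ θ, (Λ θ).PosSemidef)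
    (hone : ∀ a b, (2 * π : ℂ)⁻¹ * (∫ θ in (0 : ℝ)..2 * π, Λ θ a b) = (1 : Matrix n n ℂ) a b)
    {M : ℝ} (hM0 : 0 ≤ M) (hM : ∀ θ, ‖Op (v θ)‖ ≤ M) {B : Matrix (n × m) (n × m) ℂ}
    (hB : ∀ i j, B i j = (2 * π : ℂ)⁻¹ * ∫ θ in (0 : ℝ)..2 * π, Λ θ i.1 j.1 * v θ i.2 j.2)
    (η : EuclideanSpace ℂ (n × m)) : ‖Op B η‖ ≤ M * ‖η‖ := by
  have h2π : (0 : ℝ) < 2 * π := by positivity
  have hc1 : Continuous fun θ => Λ θ ⊗ₖ (1 : Matrix m m ℂ) := continuous_kron hΛ continuous_const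
  have hid : ∀ ξ : EuclideanSpace ℂ (n × m),
      ∫ θ in (0 : ℝ)..2 * π, (⟪ξ, Op (Λ θ ⊗ₖ (1 : Matrix m m ℂ)) ξ⟫_ℂ).re = 2 * π * ‖ξ‖ ^ 2 := by
    intro ξ
    have h1 := inner_Op_integral hc1 (Y := 1) (c := (2 * π : ℂ)⁻¹) (a := 0) (b := 2 * π) (by
      intro i j
      simp only [kroneckerMap_apply, intervalIntegral.integral_mul_const]
      rw [← mul_assoc, hone, ← kroneckerMap_apply (· * ·), one_kronecker_one]) ξ ξ
    have h2 := (Complex.reCLM.intervalIntegral_comp_comm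
      ((continuous_inner_Op hc1 ξ ξ).intervalIntegrable (μ := MeasureTheory.volume) 0 (2 * π)))
    simp only [Complex.reCLM_apply] at h2
    rw [h2]
    have h3 : ∫ θ in (0 : ℝ)..2 * π, ⟪ξ, Op (Λ θ ⊗ₖ (1 : Matrix m m ℂ)) ξ⟫_ℂ =
        ((2 * π : ℝ) : ℂ) * ⟪ξ, ξ⟫_ℂ := by
      have h4 : Op (1 : Matrix (n × m) (n × m) ℂ) ξ = ξ := by simp [Op]
      rw [h4] at h1
      rw [h1]
      have : (π : ℂ) ≠ 0 := by exact_mod_cast pi_ne_zero
      push_cast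
      field_simp
    rw [h3, Complex.re_ofReal_mul, re_inner_self]
  have key : ∀ ξ η : EuclideanSpace ℂ (n × m),
      ‖⟪ξ, Op B η⟫_ℂ‖ ≤ M / 2 * (‖ξ‖ ^ 2 + ‖η‖ ^ 2) := by
    intro ξ η
    have hc := continuous_kron hΛ hv
    rw [inner_Op_integral hc (c := (2 * π : ℂ)⁻¹) (a := 0) (b := 2 * π) hB, norm_mul, norm_inv]
    have h1 : ‖(2 * π : ℂ)‖ = 2 * π := by
      rw [norm_mul, Complex.norm_real, Real.norm_of_nonneg pi_pos.le]; simp
    rw [h1, inv_mul_le_iff₀ h2π]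
    have hr : ∀ ξ : EuclideanSpace ℂ (n × m),
        Continuous fun θ => (⟪ξ, Op (Λ θ ⊗ₖ (1 : Matrix m m ℂ)) ξ⟫_ℂ).re := fun ξ =>
      Complex.continuous_re.comp (continuous_inner_Op hc1 ξ ξ)
    have h2 := intervalIntegral.norm_integral_le_of_norm_le (μ := MeasureTheory.volume) h2π.le
      (f := fun θ => ⟪ξ, Op (Λ θ ⊗ₖ v θ) η⟫_ℂ)
      (g := fun θ => M / 2 * ((⟪ξ, Op (Λ θ ⊗ₖ (1 : Matrix m m ℂ)) ξ⟫_ℂ).re +
        (⟪η, Op (Λ θ ⊗ₖ (1 : Matrix m m ℂ)) η⟫_ℂ).re))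
      (Eventually.of_forall fun θ _ => kron_pointwise (hpsd θ) hM0 (hM θ) ξ η)
      ((continuous_const.mul ((hr ξ).add (hr η))).intervalIntegrable _ _)
    rw [intervalIntegral.integral_const_mul, intervalIntegral.integral_add
      ((hr ξ).intervalIntegrable _ _) ((hr η).intervalIntegrable _ _), hid, hid] at h2
    refine h2.trans (le_of_eq ?_)
    ring
  rcases eq_or_ne η 0 with rfl | hη
  · simp
  rcases eq_or_ne (Op B η) 0 with h0 | h0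
  · rw [h0, norm_zero]; positivity
  have hηp : 0 < ‖η‖ := norm_pos_iff.2 hη
  have hyp : 0 < ‖Op B η‖ := norm_pos_iff.2 h0
  have h1 := key (((‖η‖ / ‖Op B η‖ : ℝ) : ℂ) • Op B η) η
  rw [inner_smul_left, norm_mul, inner_self_eq_norm_sq_to_K, norm_smul, RCLike.norm_conj,
    Complex.norm_real, Real.norm_of_nonneg (div_pos hηp hyp).le, norm_pow, RCLike.norm_ofReal,
    abs_of_pos hyp] at h1
  have h2 : ‖η‖ / ‖Op B η‖ * ‖Op B η‖ = ‖η‖ := by field_simp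
  have h3 : ‖η‖ / ‖Op B η‖ * ‖Op B η‖ ^ 2 = ‖η‖ * ‖Op B η‖ := by field_simp
  rw [h2, h3] at h1
  refine le_of_mul_le_mul_left ?_ hηp
  nlinarith

/-- Conjugation by `S ⊗ 1` costs at most `κ`. -/
theorem norm_conj_kron {S : Matrix n n ℂ} (hS : S.IsHermitian) {κsq : ℝ}
    (h1 : (S * S - 1).PosSemidef) (h2 : ((κsq : ℂ) • (1 : Matrix n n ℂ) - S * S).PosSemidef)
    {B B' : Matrix (n × m) (n × m) ℂ}
    (hB : (S ⊗ₖ (1 : Matrix m m ℂ)) * B = B' * (S ⊗ₖ (1 : Matrix m m ℂ)))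
    {M : ℝ} (hM0 : 0 ≤ M) (hB' : ∀ η, ‖Op B' η‖ ≤ M * ‖η‖) : ‖Op B‖ ≤ √κsq * M := by
  set K : Matrix (n × m) (n × m) ℂ := S ⊗ₖ (1 : Matrix m m ℂ) with hK
  have hKK : Kᴴ * K = (S * S) ⊗ₖ (1 : Matrix m m ℂ) := by
    rw [hK, conjTranspose_kronecker, conjTranspose_one, hS.eq, ← mul_kronecker_mul, mul_one]
  have hlow : ∀ ξ, ‖ξ‖ ≤ ‖Op K ξ‖ := by
    intro ξ
    refine abs_le_abs_aux ?_ (norm_nonneg _)
    have h3 := re_inner_Op_nonneg (h1.kronecker (PosSemidef.one (n := m))) ξ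
    have h4 : (S * S - 1) ⊗ₖ (1 : Matrix m m ℂ) = Kᴴ * K - 1 := by
      rw [hKK, ← one_kronecker_one]
      ext i j
      simp only [kroneckerMap_apply, Matrix.sub_apply]; ring
    rw [h4, Op, map_sub, map_one, ContinuousLinearMap.sub_apply, inner_sub_right, Complex.sub_re,
      ← norm_sq_Op, ContinuousLinearMap.one_apply, re_inner_self] at h3
    linarith
  have hup : ∀ ξ, ‖Op K ξ‖ ≤ √κsq * ‖ξ‖ := by
    intro ξ
    have h3 := re_inner_Op_nonneg (h2.kronecker (PosSemidef.one (n := m))) ξ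
    have h4 : ((κsq : ℂ) • (1 : Matrix n n ℂ) - S * S) ⊗ₖ (1 : Matrix m m ℂ) =
        (κsq : ℂ) • (1 : Matrix (n × m) (n × m) ℂ) - Kᴴ * K := by
      rw [hKK, ← one_kronecker_one]
      ext i j
      simp only [kroneckerMap_apply, Matrix.sub_apply, Matrix.smul_apply, smul_eq_mul]; ring
    rw [h4, Op, map_sub, map_smul, map_one, ContinuousLinearMap.sub_apply, inner_sub_right,
      Complex.sub_re, ← norm_sq_Op, ContinuousLinearMap.smul_apply, ContinuousLinearMap.one_apply,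
      inner_smul_right, Complex.re_ofReal_mul, re_inner_self] at h3
    rw [← Real.sqrt_sq (norm_nonneg ξ), ← Real.sqrt_mul' _ (sq_nonneg _)]
    exact Real.le_sqrt_of_sq_le (by linarith)
  refine ContinuousLinearMap.opNorm_le_bound _ (by positivity) fun η => ?_
  calc ‖Op B η‖ ≤ ‖Op K (Op B η)‖ := hlow _
    _ = ‖Op B' (Op K η)‖ := by rw [← Op_mul, ← Op_mul, hB]
    _ ≤ M * ‖Op K η‖ := hB' _
    _ ≤ M * (√κsq * ‖η‖) := mul_le_mul_of_nonneg_left (hup η) hM0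
    _ = _ := by ring

end Crest.Agent.H1Cz
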