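import Mathlib

/-! Division of holomorphic functions by polynomials and vanishing of polynomials on matrices. -/

set_option autoImplicit false

open Set Filter Metric Topology Polynomial Asymptotics

namespace Crest.Agent.H1Cz

/-- Division with remainder of a holomorphic function by `∏ (X - a)`. -/
theorem exists_division {O : Set ℂ} (hO : IsOpen O) (s : Multiset ℂ) (hs : ∀ a ∈ s, a ∈ O)
    {W : ℂ → ℂ} (hW : DifferentiableOn ℂ W O) :
    ∃ (r : ℂ[X]) (e : ℂ → ℂ), DifferentiableOn ℂ e O ∧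
      ∀ z, W z = r.eval z + ((s.map fun a => X - C a).prod).eval z * e z := by
  induction s using Multiset.induction_on generalizing W with
  | empty => exact ⟨0, W, hW, fun z => by simp⟩
  | cons a s ih =>
    have ha : a ∈ O := hs a (Multiset.mem_cons_self _ _)
    obtain ⟨r, e, he, hre⟩ := ih (fun b hb => hs b (Multiset.mem_cons_of_mem hb))
      ((Complex.differentiableOn_dslope (hO.mem_nhds ha)).2 hW)
    refine ⟨C (W a) + (X - C a) * r, e, he, fun z => ?_⟩
    have h1 := sub_smul_dslope W a z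
    rw [hre z, smul_eq_mul] at h1
    simp only [Multiset.map_cons, Multiset.prod_cons, eval_add, eval_mul, eval_sub, eval_X, eval_C]
    linear_combination -h1

/-- Agreement of derivatives gives a big-O estimate. -/
theorem isBigO_of_iteratedDeriv {F G : ℂ → ℂ} {μ : ℂ} (hF : AnalyticAt ℂ F μ)
    (hG : AnalyticAt ℂ G μ) {N : ℕ} (h : ∀ j < N, iteratedDeriv j F μ = iteratedDeriv j G μ) :
    (fun z => F z - G z) =O[𝓝 μ] fun z => (z - μ) ^ N := by
  have h1 : AnalyticAt ℂ (fun z => F z - G z) μ := hF.fun_sub hG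
  have h2 : (N : ℕ∞) ≤ analyticOrderAt (fun z => F z - G z) μ := by
    rw [natCast_le_analyticOrderAt_iff_iteratedDeriv_eq_zero h1]
    intro j hj
    rw [iteratedDeriv_fun_sub hF.contDiffAt hG.contDiffAt, h j hj, sub_self]
  obtain ⟨g, hg, hev⟩ := (natCast_le_analyticOrderAt h1).1 h2
  have h3 : (fun z => (z - μ) ^ N * g z) =O[𝓝 μ] fun z => (z - μ) ^ N * 1 :=
    (isBigO_refl _ _).mul (hg.continuousAt.isBigO_one ℂ)
  simp only [mul_one] at h3
  exact h3.congr' (hev.mono fun z hz => hz.symm) EventuallyEq.rfl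

theorem pow_dvd_of_isBigO {s : ℂ[X]} {μ : ℂ} {N : ℕ}
    (h : (fun z => s.eval z) =O[𝓝 μ] fun z => (z - μ) ^ N) : (X - C μ) ^ N ∣ s := by
  rcases eq_or_ne s 0 with rfl | hs
  · simp
  rw [← le_rootMultiplicity_iff hs]
  by_contra hlt
  push Not at hlt
  obtain ⟨t, ht, hnd⟩ := exists_eq_pow_rootMultiplicity_mul_and_not_dvd s hs μ
  set m := rootMultiplicity μ s
  apply hnd
  rw [dvd_iff_isRoot, IsRoot.def]
  obtain ⟨k, hk⟩ : ∃ k, N = m + (k + 1) := ⟨N - m - 1, by omega⟩
  have h1 : (fun z => t.eval z) =O[𝓝[≠] μ] fun z => (z - μ) ^ (k + 1) := by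
    have h2 := (h.mono (nhdsWithin_le_nhds (s := {μ}ᶜ))).mul
      (isBigO_refl (fun z => ((z - μ) ^ m)⁻¹) (𝓝[≠] μ))
    refine h2.congr' ?_ ?_
    · filter_upwards [self_mem_nhdsWithin] with z hz
      have : z - μ ≠ 0 := sub_ne_zero.2 hz
      rw [ht]
      simp only [eval_mul, eval_pow, eval_sub, eval_X, eval_C]
      field_simp
    · filter_upwards [self_mem_nhdsWithin] with z hz
      have : z - μ ≠ 0 := sub_ne_zero.2 hz
      rw [hk, pow_add]
      field_simp
  have h3 : Tendsto (fun z => (z - μ) ^ (k + 1)) (𝓝[≠] μ) (𝓝 0) := by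
    have : Continuous fun z : ℂ => (z - μ) ^ (k + 1) := by fun_prop
    have h4 := this.tendsto μ
    simp only [sub_self, ne_eq, Nat.add_eq_zero_iff, one_ne_zero, and_false, not_false_eq_true,
      zero_pow] at h4
    exact h4.mono_left nhdsWithin_le_nhds
  have h4 : Tendsto (fun z => t.eval z) (𝓝[≠] μ) (𝓝 (t.eval μ)) :=
    (t.continuous.tendsto μ).mono_left nhdsWithin_le_nhds
  exact tendsto_nhds_unique h4 (h1.trans_tendsto h3)

theorem aeval_eq_zero_of_pow_dvd {n : ℕ} (A : Matrix (Fin n) (Fin n) ℂ) {s : ℂ[X]}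
    (h : ∀ μ ∈ spectrum ℂ A, (X - C μ) ^ n ∣ s) : aeval A s = 0 := by
  classical
  rcases eq_or_ne s 0 with rfl | hs
  · simp
  have h1 : A.charpoly ∣ s := by
    rw [(IsAlgClosed.splits A.charpoly).eq_prod_roots_of_monic A.charpoly_monic,
      Multiset.prod_X_sub_C_dvd_iff_le_roots hs, Multiset.le_iff_count]
    intro μ
    by_cases hμ : μ ∈ spectrum ℂ A
    · rw [count_roots s]
      refine le_trans ?_ ((le_rootMultiplicity_iff hs).2 (h μ hμ))
      refine (Multiset.count_le_card _ _).trans ?_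
      rw [IsAlgClosed.card_roots_eq_natDegree, Matrix.charpoly_natDegree_eq_dim, Fintype.card_fin]
    · rw [Multiset.count_eq_zero_of_notMem]
      · exact Nat.zero_le _
      · intro hm
        exact hμ (Matrix.mem_spectrum_iff_isRoot_charpoly.2 (isRoot_of_mem_roots hm))
  obtain ⟨t, rfl⟩ := h1
  rw [map_mul, Matrix.aeval_self_charpoly, zero_mul]

/-- If `v = r∘f + χ(f)^n e(f)` near every eigenvalue, `q` agrees with `v` and `p` with `f`, then
`q(A) = r(p(A))`. -/
theorem aeval_eq_comp {n : ℕ} (hn : 1 ≤ n) (A : Matrix (Fin n) (Fin n) ℂ) (p q r χ : ℂ[X])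
    (f v e : ℂ → ℂ) (hf : ∀ μ ∈ spectrum ℂ A, AnalyticAt ℂ f μ)
    (hv : ∀ μ ∈ spectrum ℂ A, AnalyticAt ℂ v μ)
    (he : ∀ μ ∈ spectrum ℂ A, ContinuousAt e (f μ))
    (hχ : ∀ μ ∈ spectrum ℂ A, χ.eval (f μ) = 0)
    (hp : ∀ μ ∈ spectrum ℂ A, ∀ j < n,
      iteratedDeriv j (fun z => p.eval z) μ = iteratedDeriv j f μ)
    (hq : ∀ μ ∈ spectrum ℂ A, ∀ j < n,
      iteratedDeriv j (fun z => q.eval z) μ = iteratedDeriv j v μ)
    (hve : ∀ μ ∈ spectrum ℂ A, ∀ᶠ z in 𝓝 μ, v z = r.eval (f z) + (χ ^ n).eval (f z) * e (f z)) :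
    aeval A q = aeval (aeval A p) r := by
  rw [← aeval_comp, ← sub_eq_zero, ← map_sub]
  refine aeval_eq_zero_of_pow_dvd A fun μ hμ => pow_dvd_of_isBigO ?_
  have hpa : ∀ s : ℂ[X], AnalyticAt ℂ (fun z => s.eval z) μ := fun s =>
    s.differentiable.analyticAt μ
  have h1 := isBigO_of_iteratedDeriv (hpa q) (hv μ hμ) (hq μ hμ)
  have h2 := isBigO_of_iteratedDeriv (hpa p) (hf μ hμ) (hp μ hμ)
  have h0 : p.eval μ = f μ := by simpa using hp μ hμ 0 hn
  have h3 : (fun z => r.eval (p.eval z) - r.eval (f z)) =O[𝓝 μ] fun z => (z - μ) ^ n := by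
    have h4 := (r.hasStrictDerivAt (f μ)).hasStrictFDerivAt.isBigO_sub
    have h5 : Tendsto (fun z => (p.eval z, f z)) (𝓝 μ) (𝓝 (f μ, f μ)) := by
      refine Tendsto.prodMk_nhds ?_ (hf μ hμ).continuousAt
      rw [← h0]; exact p.continuous.tendsto μ
    exact (h4.comp_tendsto h5).trans h2
  have h6 : (fun z => (χ ^ n).eval (f z) * e (f z)) =O[𝓝 μ] fun z => (z - μ) ^ n := by
    have h7 : (fun z => χ.eval (f z)) =O[𝓝 μ] fun z => z - μ := by
      have := (χ.differentiableAt.comp μ (hf μ hμ).differentiableAt).isBigO_sub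
      simpa [hχ μ hμ] using this
    have h8 := (h7.pow n).mul (((he μ hμ).comp (hf μ hμ).continuousAt).isBigO_one ℂ)
    simpa using h8
  refine ((h1.add h6).sub h3).congr' ?_ EventuallyEq.rfl
  filter_upwards [hve μ hμ] with z hz
  simp only [eval_sub, eval_comp, hz]
  ring

end Crest.Agent.H1Cz
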